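import Vale.Agent.P297.H10.Z2.Nd
import Vale.Agent.P297.H55.Z2.Nrm

/-!
The planes through a node with a point on the conic `s ^ 2 = A₂`: parameters.
-/

set_option linter.unusedSectionVars false
set_option linter.unusedVariables false

open Polynomial

namespace Vale.Agent.P297.Z2

open Vale.Agent.P297 Vale.Agent.P297.Gen Vale.Agent.P297.H72
open Vale.Agent.P297.H160.Z2Irr

namespace TD

section ring

variable {R : Type} [CommRing R] (d : TD R)

/-- the coefficient of `h` of `B2 (p + k1 h) (r + k2 h)` -/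
def A2a (p r k1 k2 : R) : R := 2 * d.l ^ 2 * (k1 + k2) * ((p - d.pn) + (r - d.rn)) +
  4 * (2 * d.al * d.be * (k1 + k2) * (p + r) + d.kp * k1 + d.kr * k2)

/-- the coefficient of `h ^ 2` of `B2 (p + k1 h) (r + k2 h)` -/
def A2b (k1 k2 : R) : R := (d.l ^ 2 + 4 * d.al * d.be) * (k1 + k2) ^ 2

theorem B2_line (p r k1 k2 h : R) : d.B2 (p + k1 * h) (r + k2 * h) =
    d.B2 p r + d.A2a p r k1 k2 * h + d.A2b k1 k2 * h ^ 2 := by
  unfold B2 A2a A2b W
  ring

end ring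

section field

variable {k : Type} [Field k] (d : TD k)

/-- the coordinate `p` of the line with `p + r = W` and `B2 = s ^ 2` -/
def psf (W s : k) : k :=
  (s ^ 2 - d.l ^ 2 * (W - d.pn - d.rn) ^ 2 - 4 * (d.al * d.be * W ^ 2 + d.kr * W + d.w0)) /
    (4 * (d.kp - d.kr))

variable {d} [CharZero k]

theorem B2_psf (hk : d.kp ≠ d.kr) (W s : k) : d.B2 (d.psf W s) (W - d.psf W s) = s ^ 2 := by
  have hk' : d.kp - d.kr ≠ 0 := sub_ne_zero.2 hk
  have h : 4 * (d.kp - d.kr) * d.psf W s =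
      s ^ 2 - d.l ^ 2 * (W - d.pn - d.rn) ^ 2 - 4 * (d.al * d.be * W ^ 2 + d.kr * W + d.w0) := by
    unfold psf
    field_simp
  generalize d.psf W s = p at h ⊢
  unfold B2 TD.W
  linear_combination h

theorem psf_eq (hk : d.kp ≠ d.kr) {p r s : k} (h : d.B2 p r = s ^ 2) : d.psf (p + r) s = p := by
  have hk' : d.kp - d.kr ≠ 0 := sub_ne_zero.2 hk
  unfold psf
  rw [div_eq_iff (mul_ne_zero (by norm_num) hk'), ← h]
  unfold B2 TD.W
  ring

end field

end TD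

section node

variable {k : Type} [Field k] [Algebra ℂ k] {P : Par}

/-- the datum of the node with parameter `t` -/
noncomputable def ndt (P : Par) (t : k) : TD k := ntd P (tg P t / tD P t) (nal P t) (nbe P t)

theorem tC_self {t : k} (hD : tD P t ≠ 0) : tC P (tg P t / tD P t) t = 0 := by
  unfold tC
  field_simp
  unfold tD
  ring

theorem ndt_node (h : NC P) {t : k} (ht : Transcendental ℂ t) :
    IsNode P (tg P t / tD P t) (nal P t) (nbe P t) := isNode_of h ht (tC_self (tD_ne h ht))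

/-- the polynomial that detects `kp = kr` -/
noncomputable def kkp (P : Par) : ℂ[X] :=
  X * tq P X * C (P.Q0 - P.Q1) + (C P.Q0 * X - C P.Q1) * ((1 - X) * (C P.P2 - C P.P0 * X ^ 2))

theorem kkp_ne (h : NC P) : kkp P ≠ 0 := by
  intro h0
  have e : kkp P = C (P.P0 * P.Q0) * X ^ 4 +
      C (P.P0 * (P.Q0 - P.Q1) - P.P0 * P.Q0 - P.P0 * P.Q1) * X ^ 3 +
      C (-(P.P1 * (P.Q0 - P.Q1)) + P.P0 * P.Q1 - P.Q0 * P.P2) * X ^ 2 +
      C (P.P2 * (P.Q0 - P.Q1) + P.Q0 * P.P2 + P.Q1 * P.P2) * X + C (-(P.Q1 * P.P2)) := by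
    unfold kkp tq
    simp only [Polynomial.algebraMap_eq, C_add, C_sub, C_mul, C_neg]
    ring
  have h1 := congrArg (fun f => coeff f 4) h0
  have h2 := congrArg (fun f => coeff f 0) h0
  rw [e] at h1 h2
  simp only [coeff_add, coeff_C_mul, coeff_X_pow, coeff_X, coeff_C, coeff_zero] at h1 h2
  norm_num at h1 h2
  have hQ0 : P.Q0 = 0 := h1.resolve_left h.P0
  have hQ1 : P.Q1 = 0 := h2.resolve_right h.P2
  exact h.Q (by rw [hQ0, hQ1])

theorem kp_ne (h : NC P) {t : k} (ht : Transcendental ℂ t) : (ndt P t).kp ≠ (ndt P t).kr := by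
  have h1 := tr_aeval_ne ht (kkp_ne h)
  have hD := tD_ne h ht
  have hq := tq_ne h ht
  have h0 : t ≠ 0 := by
    rintro rfl
    exact ht isAlgebraic_zero
  intro hk
  apply h1
  have e1 : aeval t (kkp P) = t * tq P t * (algebraMap ℂ k P.Q0 - algebraMap ℂ k P.Q1) +
      (algebraMap ℂ k P.Q0 * t - algebraMap ℂ k P.Q1) *
        ((1 - t) * (algebraMap ℂ k P.P2 - algebraMap ℂ k P.P0 * t ^ 2)) := by
    unfold kkp
    simp only [map_add, map_mul, map_sub, map_one, map_pow, aeval_X, aeval_C, map_tq]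
  rw [e1]
  have e2 : (ndt P t).kp - (ndt P t).kr = tq P t / tD P t ^ 2 *
      (t * tq P t * (algebraMap ℂ k P.Q0 - algebraMap ℂ k P.Q1) +
      (algebraMap ℂ k P.Q0 * t - algebraMap ℂ k P.Q1) *
        ((1 - t) * (algebraMap ℂ k P.P2 - algebraMap ℂ k P.P0 * t ^ 2))) := by
    change (nal P t * nbe P t * (algebraMap ℂ k P.Q0 - tg P t / tD P t *
        (algebraMap ℂ k P.u + algebraMap ℂ k P.v)) + tg P t / tD P t * (nbe P t - nal P t) *
          (nbe P t * algebraMap ℂ k P.P2 / nal P t)) -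
      (nal P t * nbe P t * (algebraMap ℂ k P.Q1 - tg P t / tD P t *
        (algebraMap ℂ k P.u + algebraMap ℂ k P.v)) + tg P t / tD P t * (nbe P t - nal P t) *
          (nal P t * algebraMap ℂ k P.P0 / nbe P t)) = _
    unfold nal nbe tg
    field_simp
    ring
  rw [hk, sub_self] at e2
  have h3 : tq P t / tD P t ^ 2 ≠ 0 := div_ne_zero hq (pow_ne_zero 2 hD)
  exact (mul_eq_zero.1 e2.symm).resolve_left h3

end node

/-! ### The thirteen coordinates in terms of eight free parameters -/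

section cpar

variable {k : Type} [Field k] [Algebra ℂ k] {P : Par}

/-- **The coordinates `(l, al, be, p, r, s, k1, k2, a, b, b1, c0, d)`** in terms of the free
parameters `(t, p + r, s, k1, k2, b1, c0, d)`. -/
noncomputable def cpar (P : Par) (w : Fin 8 → k) : Fin 13 → k :=
  ![tg P (w 0) / tD P (w 0), nal P (w 0), nbe P (w 0), (ndt P (w 0)).psf (w 1) (w 2),
    w 1 - (ndt P (w 0)).psf (w 1) (w 2), w 2, w 3, w 4,
    (ndt P (w 0)).A2a ((ndt P (w 0)).psf (w 1) (w 2)) (w 1 - (ndt P (w 0)).psf (w 1) (w 2))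
      (w 3) (w 4), (ndt P (w 0)).A2b (w 3) (w 4), w 5, w 6, w 7]

/-- The equations between the thirteen coordinates. -/
structure CB (P : Par) (c : Fin 13 → k) : Prop where
  node : IsNode P (c 0) (c 1) (c 2)
  sq : (ntd P (c 0) (c 1) (c 2)).B2 (c 3) (c 4) = c 5 ^ 2
  a : c 8 = (ntd P (c 0) (c 1) (c 2)).A2a (c 3) (c 4) (c 6) (c 7)
  b : c 9 = (ntd P (c 0) (c 1) (c 2)).A2b (c 6) (c 7)

theorem cb_cpar [CharZero k] (h : NC P) {w : Fin 8 → k} (ht : Transcendental ℂ (w 0)) :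
    CB P (cpar P w) where
  node := ndt_node h ht
  sq := TD.B2_psf (kp_ne h ht) (w 1) (w 2)
  a := rfl
  b := rfl

/-- the free parameters of the coordinates -/
def wpar (c : Fin 13 → k) : Fin 8 → k :=
  ![c 1 / c 2, c 3 + c 4, c 5, c 6, c 7, c 10, c 11, c 12]

theorem tr_wpar (h : NC P) {c : Fin 13 → k} (hc : CB P c) (hl : Transcendental ℂ (c 0)) :
    Transcendental ℂ (wpar c 0) := root_tr h hl (tC_of_isNode hc.node)

/-- **Every datum comes from the free parameters.** -/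
theorem cpar_wpar [CharZero k] (h : NC P) {c : Fin 13 → k} (hc : CB P c)
    (hl : Transcendental ℂ (c 0)) : cpar P (wpar c) = c := by
  have ht := tr_wpar h hc hl
  obtain ⟨e1, e2⟩ := be_of_isNode h hl hc.node
  have e3 := l_eq h ht (tC_of_isNode hc.node)
  have e0 : wpar c 0 = c 1 / c 2 := rfl
  have e4 : ndt P (wpar c 0) = ntd P (c 0) (c 1) (c 2) := by
    unfold ndt
    rw [e0, ← e1, ← e2]
    rw [e0] at e3
    rw [← e3]
  have hk := kp_ne h ht
  have e5 : (ndt P (wpar c 0)).psf (wpar c 1) (wpar c 2) = c 3 := by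
    rw [e4] at hk ⊢
    exact TD.psf_eq hk hc.sq
  have e6 : wpar c 1 - c 3 = c 4 := by
    change c 3 + c 4 - c 3 = c 4
    ring
  funext i
  fin_cases i
  · exact e3.symm
  · exact e2.symm
  · exact e1.symm
  · exact e5
  · change wpar c 1 - (ndt P (wpar c 0)).psf (wpar c 1) (wpar c 2) = c 4
    rw [e5, e6]
  · rfl
  · rfl
  · rfl
  · change (ndt P (wpar c 0)).A2a ((ndt P (wpar c 0)).psf (wpar c 1) (wpar c 2))
      (wpar c 1 - (ndt P (wpar c 0)).psf (wpar c 1) (wpar c 2)) (wpar c 3) (wpar c 4) = c 8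
    rw [e5, e6, e4]
    exact hc.a.symm
  · change (ndt P (wpar c 0)).A2b (wpar c 3) (wpar c 4) = c 9
    rw [e4]
    exact hc.b.symm
  · rfl
  · rfl
  · rfl

variable {k' : Type} [Field k'] [Algebra ℂ k'] (f : k →ₐ[ℂ] k')

theorem map_nbe' (t : k) : f (nbe P t) = nbe P (f t) := by
  unfold nbe
  rw [map_div₀, map_tq, map_tD]

theorem map_nal' (t : k) : f (nal P t) = nal P (f t) := by
  unfold nal
  rw [map_mul, map_nbe']

theorem map_ndt (t : k) : (ndt P t).map f = ndt P (f t) := by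
  unfold ndt
  rw [map_ntd, map_div₀, map_tg, map_tD, map_nal', map_nbe']

namespace TD

theorem map_A2a {R R' : Type} [CommRing R] [CommRing R'] (d : TD R) (f : R →+* R')
    (p r k1 k2 : R) : f (d.A2a p r k1 k2) = (d.map f).A2a (f p) (f r) (f k1) (f k2) := by
  simp only [A2a, TD.map, map_add, map_sub, map_mul, map_pow, map_ofNat]

theorem map_A2b {R R' : Type} [CommRing R] [CommRing R'] (d : TD R) (f : R →+* R')
    (k1 k2 : R) : f (d.A2b k1 k2) = (d.map f).A2b (f k1) (f k2) := by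
  simp only [A2b, TD.map, map_add, map_mul, map_pow, map_ofNat]

theorem map_psf {k k' : Type} [Field k] [Field k'] (d : TD k) (f : k →+* k') (W s : k) :
    f (d.psf W s) = (d.map f).psf (f W) (f s) := by
  simp only [psf, TD.map, map_div₀, map_add, map_sub, map_mul, map_pow, map_ofNat]

end TD

theorem map_cpar (w : Fin 8 → k) : (fun i => f (cpar P w i)) = cpar P (fun i => f (w i)) := by
  have e0 := map_ndt (P := P) f (w 0)
  have e1 : f ((ndt P (w 0)).psf (w 1) (w 2)) = (ndt P (f (w 0))).psf (f (w 1)) (f (w 2)) := by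
    rw [← e0]
    exact (ndt P (w 0)).map_psf (f : k →+* k') _ _
  funext i
  fin_cases i
  · change f (tg P (w 0) / tD P (w 0)) = tg P (f (w 0)) / tD P (f (w 0))
    rw [map_div₀, map_tg, map_tD]
  · exact map_nal' f _
  · exact map_nbe' f _
  · exact e1
  · change f (w 1 - (ndt P (w 0)).psf (w 1) (w 2)) = f (w 1) - _
    rw [map_sub, e1]
  · rfl
  · rfl
  · rfl
  · change f ((ndt P (w 0)).A2a ((ndt P (w 0)).psf (w 1) (w 2))
      (w 1 - (ndt P (w 0)).psf (w 1) (w 2)) (w 3) (w 4)) =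
      (ndt P (f (w 0))).A2a ((ndt P (f (w 0))).psf (f (w 1)) (f (w 2)))
        (f (w 1) - (ndt P (f (w 0))).psf (f (w 1)) (f (w 2))) (f (w 3)) (f (w 4))
    rw [← e1, ← map_sub, ← e0]
    exact (ndt P (w 0)).map_A2a (f : k →+* k') _ _ _ _
  · change f ((ndt P (w 0)).A2b (w 3) (w 4)) = (ndt P (f (w 0))).A2b (f (w 3)) (f (w 4))
    rw [← e0]
    exact (ndt P (w 0)).map_A2b (f : k →+* k') _ _
  · rfl
  · rfl
  · rfl

end cpar

/-! ### Values along a place -/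

section place

variable {N N₁ : Type} [Field N] [Algebra ℂ N] [Field N₁] [Algebra ℂ N₁]
  [Algebra N N₁] [IsScalarTower ℂ N N₁] {V : Plc N N₁} {P : Par}

open H55Z

/-- The values of all the letters. -/
structure VTD (V : Plc N N₁) (d₁ : TD N₁) (d : TD N) : Prop where
  al : V.Val d₁.al d.al
  be : V.Val d₁.be d.be
  l : V.Val d₁.l d.l
  e : V.Val d₁.e d.e
  A : V.Val d₁.A d.A
  C : V.Val d₁.C d.C
  pn : V.Val d₁.pn d.pn
  rn : V.Val d₁.rn d.rn
  kp : V.Val d₁.kp d.kp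
  kr : V.Val d₁.kr d.kr
  w0 : V.Val d₁.w0 d.w0

/-- the datum over the ring of pairs -/
def VTD.pr {d₁ : TD N₁} {d : TD N} (h : VTD V d₁ d) : TD (Pr V) where
  al := H55Z.mk h.al
  be := H55Z.mk h.be
  l := H55Z.mk h.l
  e := H55Z.mk h.e
  A := H55Z.mk h.A
  C := H55Z.mk h.C
  pn := H55Z.mk h.pn
  rn := H55Z.mk h.rn
  kp := H55Z.mk h.kp
  kr := H55Z.mk h.kr
  w0 := H55Z.mk h.w0

theorem VTD.fs {d₁ : TD N₁} {d : TD N} (h : VTD V d₁ d) :
    h.pr.map (H55Z.fs V : Pr V →+* N₁) = d₁ := rfl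

theorem VTD.sn {d₁ : TD N₁} {d : TD N} (h : VTD V d₁ d) :
    h.pr.map (H55Z.sn V : Pr V →+* N) = d := rfl

theorem VTD.A2a {d₁ : TD N₁} {d : TD N} (h : VTD V d₁ d) {p₁ r₁ x₁ y₁ : N₁} {p r x y : N}
    (hp : V.Val p₁ p) (hr : V.Val r₁ r) (hx : V.Val x₁ x) (hy : V.Val y₁ y) :
    V.Val (d₁.A2a p₁ r₁ x₁ y₁) (d.A2a p r x y) := by
  have h1 := val_pr (h.pr.A2a (H55Z.mk hp) (H55Z.mk hr) (H55Z.mk hx) (H55Z.mk hy))
  have e1 := h.pr.map_A2a (H55Z.fs V : Pr V →+* N₁) (H55Z.mk hp) (H55Z.mk hr) (H55Z.mk hx) (H55Z.mk hy)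
  have e2 := h.pr.map_A2a (H55Z.sn V : Pr V →+* N) (H55Z.mk hp) (H55Z.mk hr) (H55Z.mk hx) (H55Z.mk hy)
  rw [h.fs] at e1
  rw [h.sn] at e2
  change V.Val ((H55Z.fs V : Pr V →+* N₁) (h.pr.A2a (H55Z.mk hp) (H55Z.mk hr) (H55Z.mk hx) (H55Z.mk hy)))
    ((H55Z.sn V : Pr V →+* N) (h.pr.A2a (H55Z.mk hp) (H55Z.mk hr) (H55Z.mk hx) (H55Z.mk hy))) at h1
  rw [e1, e2] at h1
  exact h1

theorem VTD.A2b {d₁ : TD N₁} {d : TD N} (h : VTD V d₁ d) {x₁ y₁ : N₁} {x y : N}
    (hx : V.Val x₁ x) (hy : V.Val y₁ y) : V.Val (d₁.A2b x₁ y₁) (d.A2b x y) := by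
  have h1 := val_pr (h.pr.A2b (H55Z.mk hx) (H55Z.mk hy))
  have e1 := h.pr.map_A2b (H55Z.fs V : Pr V →+* N₁) (H55Z.mk hx) (H55Z.mk hy)
  have e2 := h.pr.map_A2b (H55Z.sn V : Pr V →+* N) (H55Z.mk hx) (H55Z.mk hy)
  rw [h.fs] at e1
  rw [h.sn] at e2
  change V.Val ((H55Z.fs V : Pr V →+* N₁) (h.pr.A2b (H55Z.mk hx) (H55Z.mk hy)))
    ((H55Z.sn V : Pr V →+* N) (h.pr.A2b (H55Z.mk hx) (H55Z.mk hy))) at h1
  rw [e1, e2] at h1
  exact h1

theorem VTD.psf [CharZero N] {d₁ : TD N₁} {d : TD N} (h : VTD V d₁ d) (hk : d.kp ≠ d.kr)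
    {W₁ s₁ : N₁} {W s : N} (hW : V.Val W₁ W) (hs : V.Val s₁ s) :
    V.Val (d₁.psf W₁ s₁) (d.psf W s) := by
  have h4 : V.Val (4 : N₁) (4 : N) := by
    have h := V.val_const (4 : N)
    rwa [map_ofNat] at h
  exact (((hs.pow 2).sub ((h.l.pow 2).mul (((hW.sub h.pn).sub h.rn).pow 2))).sub
    (h4.mul ((((h.al.mul h.be).mul (hW.pow 2)).add (h.kr.mul hW)).add h.w0))).div
      (h4.mul (h.kp.sub h.kr)) (mul_ne_zero (by norm_num) (sub_ne_zero.2 hk))

theorem vtd_ntd {l₁ al₁ be₁ : N₁} {l al be : N} (hl : V.Val l₁ l) (ha : V.Val al₁ al)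
    (hb : V.Val be₁ be) (ha0 : al ≠ 0) (hb0 : be ≠ 0) :
    VTD V (ntd P l₁ al₁ be₁) (ntd P l al be) := by
  have c := fun z => val_alg V z
  have h2 : V.Val (2 : N₁) (2 : N) := by
    have h := V.val_const (2 : N)
    rwa [map_ofNat] at h
  have hA := (hb.mul (c P.P2)).div ha ha0
  have hC := (ha.mul (c P.P0)).div hb hb0
  refine ⟨ha, hb, hl, hb.sub ha, hA, hC, (ha.mul (c P.u)).sub hC, (hb.mul (c P.v)).neg.sub hA,
    ?_, ?_, ?_⟩
  · exact ((ha.mul hb).mul ((c P.Q0).sub (hl.mul ((c P.u).add (c P.v))))).add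
      ((hl.mul (hb.sub ha)).mul hA)
  · exact ((ha.mul hb).mul ((c P.Q1).sub (hl.mul ((c P.u).add (c P.v))))).add
      ((hl.mul (hb.sub ha)).mul hC)
  · exact ((((((ha.mul hb).mul ((c P.m).sub (hl.mul (c P.n)))).neg).add
      ((((h2.mul hl).mul (hb.sub ha)).mul hA).mul hC)).sub
      (((((hl.mul (hb.sub ha)).mul ha).mul hb).mul (c P.u)).mul (c P.v))).sub
      ((((hl.mul ha).mul ((h2.mul hb).sub ha)).mul hA).mul (c P.u))).sub
      ((((hl.mul hb).mul ((h2.mul ha).sub hb)).mul hC).mul (c P.v))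

/-- **The values of the coordinates.** -/
theorem val_cpar [CharZero N] (h : NC P) {w₁ : Fin 8 → N₁} {w : Fin 8 → N}
    (hw : ∀ i, V.Val (w₁ i) (w i)) (ht : Transcendental ℂ (w 0)) (i : Fin 13) :
    V.Val (cpar P w₁ i) (cpar P w i) := by
  have hD := tD_ne h ht
  have vt := hw 0
  have vq : V.Val (tq P (w₁ 0)) (tq P (w 0)) :=
    (((val_alg V _).mul (vt.pow 2)).sub ((val_alg V _).mul vt)).add (val_alg V _)
  have vg : V.Val (tg P (w₁ 0)) (tg P (w 0)) :=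
    vt.mul (((val_alg V _).mul vt).sub (val_alg V _))
  have vD : V.Val (tD P (w₁ 0)) (tD P (w 0)) := ((V.val_one.sub vt).mul vq).add vg
  have vl : V.Val (tg P (w₁ 0) / tD P (w₁ 0)) (tg P (w 0) / tD P (w 0)) := vg.div vD hD
  have vb : V.Val (nbe P (w₁ 0)) (nbe P (w 0)) := vq.div vD hD
  have va : V.Val (nal P (w₁ 0)) (nal P (w 0)) := vt.mul (vq.div vD hD)
  have hn := ndt_node h ht
  have vd : VTD V (ndt P (w₁ 0)) (ndt P (w 0)) := vtd_ntd vl va vb hn.al0 hn.be0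
  have vp := vd.psf (kp_ne h ht) (hw 1) (hw 2)
  fin_cases i
  · exact vl
  · exact va
  · exact vb
  · exact vp
  · exact (hw 1).sub vp
  · exact hw 2
  · exact hw 3
  · exact hw 4
  · exact vd.A2a vp ((hw 1).sub vp) (hw 3) (hw 4)
  · exact vd.A2b (hw 3) (hw 4)
  · exact hw 5
  · exact hw 6
  · exact hw 7

end place

end Vale.Agent.P297.Z2
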