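import Vale.Agent.P297.H10.Z2.FamMap
import Vale.Agent.P297.H10.Z2.Cpar
import Vale.Agent.P297.H54.Z2.FDeg
import Vale.Agent.P297.H860.Z2.Abs

/-!
The cycles of the members of the family of the two-sections are relations.
-/

set_option linter.unusedSectionVars false
set_option linter.unusedVariables false
set_option linter.style.haveILetI false

open Polynomial

namespace Vale.Agent.P297.Z2

open Vale.Agent.P297 Vale.Agent.P297.Gen Vale.Agent.P297.H72 Vale.Agent.P297.H637
open Vale.Agent.P297.H160.Z2Irr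

namespace FP

/-! ### The degree of the equation -/

section deg

variable {L : Type} [Field L] [Algebra ℂ L] (P : Par) (D : FP L)

theorem eval_rev (v : L) : ((D.map C).FE P 1 X : L[X]).eval v = D.FE P 1 v := by
  have h := map_FE P (D.map C) ((Polynomial.aeval v : L[X] →ₐ[L] L).restrictScalars ℂ) 1 X
  simp only [AlgHom.restrictScalars_apply, coe_aeval_eq_eval, eval_X, eval_one] at h
  have e : (D.map C).map ((Polynomial.aeval v : L[X] →ₐ[L] L).restrictScalars ℂ) = D := by
    simp only [FP.map, AlgHom.restrictScalars_apply, aeval_C, Algebra.algebraMap_self,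
      RingHom.id_apply]
  rw [e] at h
  exact h

/-- **The degree of the equation is at most fifty-eight.** -/
theorem poly_natDegree_le : (D.poly P).natDegree ≤ 58 := by
  haveI : CharZero L := charZero_of_injective_algebraMap (algebraMap ℂ L).injective
  set q : L[X] := (D.map C).FE P 1 X with hq
  by_cases h0 : D.poly P = 0
  · rw [h0, natDegree_zero]
    exact Nat.zero_le _
  have key : X ^ (q.natDegree + 1) * D.poly P = X ^ 59 * q.reverse := by
    refine Polynomial.funext fun u => ?_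
    rw [eval_mul, eval_mul, eval_pow, eval_pow, eval_X]
    rcases eq_or_ne u 0 with rfl | hu
    · rw [zero_pow (Nat.succ_ne_zero _), zero_pow (by norm_num), zero_mul, zero_mul]
    · have h1 : (D.poly P).eval u = u ^ 58 * q.eval u⁻¹ := by
        rw [eval_poly, eval_rev, ← FE_smul, mul_one, mul_inv_cancel₀ hu]
      haveI : Invertible u⁻¹ := invertibleOfNonzero (inv_ne_zero hu)
      have h2 := eval₂_reverse_mul_pow (RingHom.id L) u⁻¹ q
      have h3 : ⅟(u⁻¹) = u := by rw [invOf_eq_inv, inv_inv]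
      rw [h3] at h2
      change q.reverse.eval u * u⁻¹ ^ q.natDegree = q.eval u⁻¹ at h2
      rw [h1, ← h2, inv_pow]
      field_simp
      ring
  have h1 : (X ^ (q.natDegree + 1) * D.poly P).natDegree = q.natDegree + 1 + (D.poly P).natDegree := by
    rw [natDegree_mul (pow_ne_zero _ X_ne_zero) h0, natDegree_X_pow]
  have h2 : (X ^ 59 * q.reverse).natDegree ≤ 59 + q.natDegree := by
    refine natDegree_mul_le.trans ?_
    rw [natDegree_X_pow]
    have := q.reverse_natDegree_le
    omega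
  rw [key] at h1
  omega

end deg

/-! ### The relations between the letters -/

section base

variable {k : Type} [Field k] [Algebra ℂ k] {P : Par}

/-- the vector of the letters -/
def vec (D : FP k) : Fin 13 → k :=
  ![D.l, D.al, D.be, D.ps, D.rs, D.ss, D.k1, D.k2, D.a, D.b, D.b1, D.c0, D.d]

theorem of_vec (D : FP k) : of D.vec = D := rfl

theorem Base.cb {D : FP k} (h : D.Base P) : CB P D.vec where
  node := h.node
  sq := h.hs.symm
  a := by
    change D.a = (ntd P D.l D.al D.be).A2a D.ps D.rs D.k1 D.k2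
    rw [h.ha]
    unfold TD.A2a
    change _ = 2 * D.l ^ 2 * (D.k1 + D.k2) * ((D.ps - _) + (D.rs - _)) +
      4 * (2 * D.al * D.be * (D.k1 + D.k2) * (D.ps + D.rs) + _ * D.k1 + _ * D.k2)
    ring
  b := by
    change D.b = (ntd P D.l D.al D.be).A2b D.k1 D.k2
    rw [h.hb]
    rfl

theorem base_of {c : Fin 13 → k} (h : CB P c) : (of c).Base P where
  node := h.node
  hs := h.sq.symm
  ha := by
    have h1 := h.a
    change c 8 = _
    rw [h1]
    unfold TD.A2a
    change 2 * c 0 ^ 2 * (c 6 + c 7) * ((c 3 - _) + (c 4 - _)) +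
      4 * (2 * c 1 * c 2 * (c 6 + c 7) * (c 3 + c 4) + _ * c 6 + _ * c 7) =
      2 * c 0 ^ 2 * (c 3 - (ntd P (c 0) (c 1) (c 2)).pn + (c 4 - (ntd P (c 0) (c 1) (c 2)).rn)) *
        (c 6 + c 7) + 8 * c 1 * c 2 * (c 3 + c 4) * (c 6 + c 7) +
        4 * (ntd P (c 0) (c 1) (c 2)).kp * c 6 + 4 * (ntd P (c 0) (c 1) (c 2)).kr * c 7
    ring
  hb := h.b

/-- the family in free parameters -/
noncomputable def Vw {K : Type} [Field K] [Algebra ℂ K] (P : Par) (x : Fin 5 → K) (L : Type)
    [Field L] [Algebra ℂ L] (w : Fin 8 → L) : (K →ₐ[ℂ] L) →₀ ℤ := (of (cpar P w)).VV P x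

theorem map_Vw {K : Type} [Field K] [Algebra ℂ K] {x : Fin 5 → K} (hx : H160.Z2Irr.IsFF P x)
    {L L' : Type} [Field L] [Algebra ℂ L] [IsAlgClosed L] [Field L'] [Algebra ℂ L']
    (f : L →ₐ[ℂ] L') (w : Fin 8 → L) :
    Finsupp.mapDomain (fun φ : K →ₐ[ℂ] L => f.comp φ) (Vw P x L w) =
      Vw P x L' (fun i => f (w i)) := by
  unfold Vw
  rw [map_VV _ f hx, map_of, map_cpar]

end base

/-! ### The theorem -/

section main

variable {K N N₁ : Type} [Field K] [Algebra ℂ K] [Field N] [Algebra ℂ N] [Field N₁] [Algebra ℂ N₁]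
  [Algebra N N₁] [IsScalarTower ℂ N N₁] {V : Plc N N₁} {P : Par} {x : Fin 5 → K}

/-- the point of a member with parameter `u` is good -/
structure GoodAt (P : Par) (D : FP N) (u : N) : Prop where
  dl : D.dl u 1 ≠ 0
  dlt : D.dlt P u 1 ≠ 0
  good : H55Z.Good P D.l (D.al * D.yy P u + D.pb u) (-D.be * D.yy P u + D.rb u) (D.yy P u)
    (D.sb u * D.yy P u + D.om u)

/-- **The specialisation of a point of a member.** -/
theorem spec_pS (hx : H160.Z2Irr.IsFF P x) (hM : P.M1 = 0) {D₁ : FP N₁} {D : FP N}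
    (h : VFP V D₁ D) (hb : D₁.Base P) {u₁ : N₁} {u : N} (hu : V.Val u₁ u)
    (hF : (D₁.poly P).eval u₁ = 0) (hg : GoodAt P D u) :
    (H160.Z2Irr.pt x (D₁.pS P u₁), H160.Z2Irr.pt x (D.pS P u)) ∈ SpecC K V := by
  haveI : CharZero N₁ := charZero_of_injective_algebraMap (algebraMap ℂ N₁).injective
  have hd := hg.dl
  have hD := hg.dlt
  have vy := h.vyy hu hD
  have hd₁ := (h.vdl hu).ne_zero hd
  have hD₁ := (h.vdlt hu).ne_zero hD
  have hH := H54.Z2.HP_natDegree hM hb hd₁
  have hG := H54.Z2.GP_natDegree hM hb hd₁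
  exact H55Z.specC_toS hx h.l ((h.al.mul vy).add (h.vpb hu hd))
    ((h.be.neg.mul vy).add (h.vrb hu hd)) vy (((h.vsb hu hd).mul vy).add (h.vom hu hd)) hg.good
    (pS_B hH hd₁ hD₁) (pS_Phi hH hG hd₁ hD₁ hF)

/-- **The specialisation of a member.** -/
theorem spec_VV [IsAlgClosed N₁] (hx : H160.Z2Irr.IsFF P x) (hM : P.M1 = 0) {D₁ : FP N₁}
    {D : FP N} (h : VFP V D₁ D) (hb : D₁.Base P) (hd : (D.poly P).natDegree = 58)
    (hg : ∀ u, (D.poly P).eval u = 0 → GoodAt P D u) : (D₁.VV P x, D.VV P x) ∈ SpecC K V := by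
  have h0 : D.poly P ≠ 0 := by
    intro h0
    rw [h0, natDegree_zero] at hd
    omega
  have hv : PVal V (D₁.poly P) (D.poly P) := h.vpoly
  have hd₁ : (D₁.poly P).natDegree = 58 := by
    refine le_antisymm (poly_natDegree_le P D₁) (le_natDegree_of_ne_zero ?_)
    refine (hv 58).ne_zero ?_
    rw [← hd]
    exact leadingCoeff_ne_zero.2 h0
  exact H55Z.bl_all hv h0 (hd₁.trans hd.symm) _ _ fun r a h1 h2 h3 =>
    spec_pS hx hM h hb h2 h1 (hg a h3)

/-- **The cycle of a member of the family of the two-sections is a relation.** -/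
theorem const6 [IsAlgClosed N] {m : ℤ} (hx : H160.Z2Irr.IsFF P x) (h : NC P) (hM : P.M1 = 0)
    {D : FP N} (hb : D.Base P) (hl : Transcendental ℂ D.l) (hd : (D.poly P).natDegree = 58)
    (hg : ∀ u, (D.poly P).eval u = 0 → GoodAt P D u) : D.VV P x ∈ Rel m K N := by
  classical
  haveI : CharZero N := charZero_of_injective_algebraMap (algebraMap ℂ N).injective
  have hw := cpar_wpar h hb.cb hl
  have ht := tr_wpar h hb.cb hl
  refine H860.multi_specC_abs (fun L _ _ _ w => Vw P x L w)
    (fun L L' _ _ _ _ _ _ g w => map_Vw hx g w) (wpar D.vec) (fun _ => 0) _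
    (fun N₁ _ _ _ _ _ V e y he0 he hy hfree => ?_)
  haveI : CharZero N₁ := charZero_of_injective_algebraMap (algebraMap ℂ N₁).injective
  have hval : ∀ i, V.Val (algebraMap N N₁ (wpar D.vec i) + e * y i) (wpar D.vec i) := by
    intro i
    have h3 := (V.val_const (wpar D.vec i)).add (he.mul (hy i))
    rwa [zero_mul, add_zero] at h3
  have hc := fun i => val_cpar h hval ht i
  rw [hw] at hc
  have hv := vfp_of hc
  rw [of_vec] at hv
  exact spec_VV hx hM hv (base_of (cb_cpar h (H55Z.tr_of_val (hval 0) ht))) hd hg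

end main

end FP

end Vale.Agent.P297.Z2
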