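import Vale.Agent.P297.H637.Z2.Fam6
import Vale.Agent.P297.H55.Z2.TOne

/-!
The family of the two-sections: naturality, values along a place, the points of a member lie on
the surface.
-/

set_option linter.unusedSectionVars false
set_option linter.unusedVariables false
set_option linter.style.haveILetI false

open Polynomial

namespace Vale.Agent.P297.Z2

open Vale.Agent.P297 Vale.Agent.P297.Gen Vale.Agent.P297.H72 Vale.Agent.P297.H637
open Vale.Agent.P297.H160.Z2Irr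

namespace FP

section ring

variable {R R' : Type} [CommRing R] [CommRing R'] (D : FP R) (f : R →+* R')

theorem nat_dl (u v : R) : f (D.dl u v) = (D.map f).dl (f u) (f v) := by
  simp only [FP.map, dl, map_sub, map_mul, map_pow]

theorem nat_ht (u v : R) : f (D.ht u v) = (D.map f).ht (f u) (f v) := by
  simp only [FP.map, ht, map_sub, map_mul, map_ofNat]

theorem nat_pt (u v : R) : f (D.pt u v) = (D.map f).pt (f u) (f v) := by
  unfold pt
  rw [map_add, map_mul, map_mul, nat_dl, nat_ht]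
  rfl

theorem nat_rt (u v : R) : f (D.rt u v) = (D.map f).rt (f u) (f v) := by
  unfold rt
  rw [map_add, map_mul, map_mul, nat_dl, nat_ht]
  rfl

theorem nat_st (u v : R) : f (D.st u v) = (D.map f).st (f u) (f v) := by
  simp only [FP.map, st, map_sub, map_add, map_neg, map_mul, map_pow]

theorem nat_wt (u v : R) : f (D.wt u v) = (D.map f).wt (f u) (f v) := by
  unfold wt
  rw [map_add, map_add, map_mul, map_mul, map_mul, nat_dl, nat_ht, nat_st]
  rfl

end ring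

section poly

variable {R R' : Type} [CommRing R] [Algebra ℂ R] [CommRing R'] [Algebra ℂ R'] (P : Par)
  (D : FP R) (f : R →ₐ[ℂ] R')

/-- **Naturality of the equation.** -/
theorem map_poly : (D.poly P).map (f : R →+* R') = (D.map f).poly P := by
  unfold poly
  rw [← mp_apply, map_FE, map_C_map, mp_apply, mp_apply, map_X, Polynomial.map_one]

theorem eval_poly (u : R) : (D.poly P).eval u = D.FE P u 1 := by
  have h := map_FE P (D.map C) ((Polynomial.aeval u : R[X] →ₐ[R] R).restrictScalars ℂ) X 1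
  simp only [AlgHom.restrictScalars_apply, coe_aeval_eq_eval, eval_X, eval_one] at h
  have e : (D.map C).map ((Polynomial.aeval u : R[X] →ₐ[R] R).restrictScalars ℂ) = D := by
    simp only [FP.map, AlgHom.restrictScalars_apply, aeval_C, Algebra.algebraMap_self,
      RingHom.id_apply]
  rw [e] at h
  exact h

end poly

section field

variable {L L' : Type} [Field L] [Algebra ℂ L] [Field L'] [Algebra ℂ L'] (P : Par) (D : FP L)
  (f : L →ₐ[ℂ] L')

theorem map_yy (u : L) : f (D.yy P u) = (D.map f).yy P (f u) := by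
  unfold yy
  rw [map_div₀, map_nu, map_dlt, map_one]

theorem map_pb (u : L) : f (D.pb u) = (D.map f).pb (f u) := by
  unfold pb
  have h1 := nat_pt D (f : L →+* L') u 1
  have h2 := nat_dl D (f : L →+* L') u 1
  simp only [RingHom.coe_coe, map_one] at h1 h2
  rw [map_div₀, h1, h2]

theorem map_rb (u : L) : f (D.rb u) = (D.map f).rb (f u) := by
  unfold rb
  have h1 := nat_rt D (f : L →+* L') u 1
  have h2 := nat_dl D (f : L →+* L') u 1
  simp only [RingHom.coe_coe, map_one] at h1 h2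
  rw [map_div₀, h1, h2]

theorem map_sb (u : L) : f (D.sb u) = (D.map f).sb (f u) := by
  unfold sb
  have h1 := nat_st D (f : L →+* L') u 1
  have h2 := nat_dl D (f : L →+* L') u 1
  simp only [RingHom.coe_coe, map_one] at h1 h2
  rw [map_div₀, h1, h2]

theorem map_om (u : L) : f (D.om u) = (D.map f).om (f u) := by
  unfold om
  have h1 := nat_wt D (f : L →+* L') u 1
  have h2 := nat_dl D (f : L →+* L') u 1
  simp only [RingHom.coe_coe, map_one] at h1 h2
  rw [map_sub, map_sub, map_pow, map_pow, map_div₀, h1, h2, map_pb, map_rb]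

theorem map_pS (u : L) (j : Fin 5) : f (D.pS P u j) = (D.map f).pS P (f u) j := by
  unfold pS
  rw [H55Z.map_toS]
  congr 1
  · rw [map_add, map_mul, map_yy, map_pb]
    rfl
  · rw [map_add, map_mul, map_neg, map_yy, map_rb]
    rfl
  · exact map_yy P D f u
  · rw [map_add, map_mul, map_sb, map_yy, map_om]

variable {K : Type} [Field K] [Algebra ℂ K] {P}

/-- **Naturality of the cycle of a member.** -/
theorem map_VV [IsAlgClosed L] {x : Fin 5 → K} (hx : H160.Z2Irr.IsFF P x) :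
    Finsupp.mapDomain (fun φ : K →ₐ[ℂ] L => f.comp φ) (D.VV P x) = (D.map f).VV P x := by
  unfold VV
  rw [sum_roots_map f (D.poly P) _ (fun u => H160.Z2Irr.pt x ((D.map f).pS P u))
    (fun u _ => by
      rw [H55Z.map_pt_all hx]
      congr 1
      funext j
      exact map_pS P D f u j), map_poly]

end field

/-! ### The points lie on the surface -/

section surf

variable {L : Type} [Field L] [Algebra ℂ L] {P : Par} {D : FP L}

/-- `S + p ^ 2 - r ^ 2` at a point -/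
theorem S1_div {u : L} (hd : D.dl u 1 ≠ 0) (Y : L) :
    -((D.pb u + D.al * Y) ^ 2 - (D.rb u - D.be * Y) ^ 2) + D.S1 u 1 Y / D.dl u 1 =
      D.sb u * Y + D.om u := by
  unfold om sb S1 pb rb
  field_simp
  ring

theorem pt_div {u : L} (hd : D.dl u 1 ≠ 0) (Y : L) :
    D.pt u 1 + D.al * D.dl u 1 * Y = D.dl u 1 * (D.pb u + D.al * Y) := by
  unfold pb
  field_simp

theorem rt_div {u : L} (hd : D.dl u 1 ≠ 0) (Y : L) :
    D.rt u 1 - D.be * D.dl u 1 * Y = D.dl u 1 * (D.rb u - D.be * Y) := by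
  unfold rb
  field_simp

theorem hY_eq {u : L} (hd : D.dl u 1 ≠ 0) (Y : L) : D.hY P u 1 Y =
    D.dl u 1 ^ 3 * ((D.sb u * Y + D.om u) ^ 2 -
      tB P D.l (D.al * Y + D.pb u) (-D.be * Y + D.rb u) Y) := by
  have e1 : D.hY P u 1 Y = tCb P D.l Y (D.dl u 1 * 1) (D.dl u 1 * (D.pb u + D.al * Y))
      (D.dl u 1 * (D.rb u - D.be * Y)) (D.dl u 1 * (D.S1 u 1 Y / D.dl u 1)) := by
    rw [← pt_div hd, ← rt_div hd, mul_one, mul_div_cancel₀ _ hd]
    rfl
  rw [e1, tCb_smul, tCb_eq, S1_div hd, show D.pb u + D.al * Y = D.al * Y + D.pb u by ring,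
    show D.rb u - D.be * Y = -D.be * Y + D.rb u by ring]

theorem gY_eq {u : L} (hd : D.dl u 1 ≠ 0) (Y : L) : D.gY P u 1 Y =
    D.dl u 1 ^ 2 * (2 * tPhi P D.l (D.al * Y + D.pb u) (-D.be * Y + D.rb u) Y
      (D.sb u * Y + D.om u) +
      (dat P Y).g * fU P Y * fV P Y * ((D.sb u * Y + D.om u) ^ 2 -
        tB P D.l (D.al * Y + D.pb u) (-D.be * Y + D.rb u) Y)) := by
  have e1 : D.gY P u 1 Y = tQd P D.l Y (D.dl u 1 * 1) (D.dl u 1 * (D.pb u + D.al * Y))
      (D.dl u 1 * (D.rb u - D.be * Y)) (D.dl u 1 * (D.S1 u 1 Y / D.dl u 1)) := by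
    rw [← pt_div hd, ← rt_div hd, mul_one, mul_div_cancel₀ _ hd]
    rfl
  rw [e1, tQd_smul, tQd_eq, S1_div hd, show D.pb u + D.al * Y = D.al * Y + D.pb u by ring,
    show D.rb u - D.be * Y = -D.be * Y + D.rb u by ring]

theorem eval_HP (u Y : L) : (D.HP P u 1).eval Y = D.hY P u 1 Y := by
  have h := map_hY P (D.map C) ((Polynomial.aeval Y : L[X] →ₐ[L] L).restrictScalars ℂ) (C u) (C 1) X
  simp only [AlgHom.restrictScalars_apply, coe_aeval_eq_eval, eval_X, eval_C] at h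
  have e : (D.map C).map ((Polynomial.aeval Y : L[X] →ₐ[L] L).restrictScalars ℂ) = D := by
    simp only [FP.map, AlgHom.restrictScalars_apply, aeval_C, Algebra.algebraMap_self,
      RingHom.id_apply]
  rw [e] at h
  exact h

theorem eval_GP (u Y : L) : (D.GP P u 1).eval Y = D.gY P u 1 Y := by
  have h := map_gY P (D.map C) ((Polynomial.aeval Y : L[X] →ₐ[L] L).restrictScalars ℂ) (C u) (C 1) X
  simp only [AlgHom.restrictScalars_apply, coe_aeval_eq_eval, eval_X, eval_C] at h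
  have e : (D.map C).map ((Polynomial.aeval Y : L[X] →ₐ[L] L).restrictScalars ℂ) = D := by
    simp only [FP.map, AlgHom.restrictScalars_apply, aeval_C, Algebra.algebraMap_self,
      RingHom.id_apply]
  rw [e] at h
  exact h

/-- The value of a polynomial of degree at most nine in homogeneous form. -/
theorem FF_eq {G : L[X]} (hG : G.natDegree ≤ 9) (x z : L) (hx : x ≠ 0) :
    ∑ j ∈ Finset.range 10, G.coeff j * z ^ j * x ^ (9 - j) = x ^ 9 * G.eval (z / x) := by
  rw [eval_eq_sum_range' (n := 10) (by omega), Finset.mul_sum]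
  refine Finset.sum_congr rfl fun j hj => ?_
  have h1 : j ≤ 9 := Nat.lt_succ_iff.1 (Finset.mem_range.1 hj)
  have h2 : x ^ 9 = x ^ j * x ^ (9 - j) := by rw [← pow_add, Nat.add_sub_cancel' h1]
  rw [h2, div_pow]
  field_simp

/-- **The points of a member lie on `S ^ 2 = B`.** -/
theorem pS_B {u : L} (hH : (D.HP P u 1).natDegree ≤ 1) (hd : D.dl u 1 ≠ 0)
    (hD : D.dlt P u 1 ≠ 0) : (D.sb u * D.yy P u + D.om u) ^ 2 =
      tB P D.l (D.al * D.yy P u + D.pb u) (-D.be * D.yy P u + D.rb u) (D.yy P u) := by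
  have h1 : (D.HP P u 1).eval (D.yy P u) = 0 := by
    rw [eval_eq_sum_range' (n := 2) (by omega), Finset.sum_range_succ, Finset.sum_range_one,
      pow_zero, mul_one, pow_one]
    change (D.HP P u 1).coeff 0 + D.dlt P u 1 * (D.nu P u 1 / D.dlt P u 1) = 0
    rw [mul_div_cancel₀ _ hD]
    unfold nu
    ring
  rw [eval_HP, hY_eq hd] at h1
  have h2 := (mul_eq_zero.1 h1).resolve_left (pow_ne_zero 3 hd)
  exact sub_eq_zero.1 h2

/-- **The points of a member over the roots of the equation lie on the surface.** -/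
theorem pS_Phi [CharZero L] {u : L} (hH : (D.HP P u 1).natDegree ≤ 1)
    (hG : (D.GP P u 1).natDegree ≤ 9) (hd : D.dl u 1 ≠ 0) (hD : D.dlt P u 1 ≠ 0)
    (hF : (D.poly P).eval u = 0) :
    tPhi P D.l (D.al * D.yy P u + D.pb u) (-D.be * D.yy P u + D.rb u) (D.yy P u)
      (D.sb u * D.yy P u + D.om u) = 0 := by
  have hB := pS_B hH hd hD
  rw [eval_poly] at hF
  have h1 : D.dlt P u 1 ^ 9 * (D.GP P u 1).eval (D.nu P u 1 / D.dlt P u 1) = 0 := by
    rw [← FF_eq hG _ _ hD]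
    exact hF
  have h2 := (mul_eq_zero.1 h1).resolve_left (pow_ne_zero 9 hD)
  change (D.GP P u 1).eval (D.yy P u) = 0 at h2
  rw [eval_GP, gY_eq hd, hB, sub_self, mul_zero, add_zero] at h2
  have h3 := (mul_eq_zero.1 h2).resolve_left (pow_ne_zero 2 hd)
  exact (mul_eq_zero.1 h3).resolve_left two_ne_zero

end surf

/-! ### Values along a place -/

section place

variable {N N₁ : Type} [Field N] [Algebra ℂ N] [Field N₁] [Algebra ℂ N₁]
  [Algebra N N₁] [IsScalarTower ℂ N N₁] {V : Plc N N₁} {P : Par}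

/-- The values of the letters. -/
structure VFP (V : Plc N N₁) (D₁ : FP N₁) (D : FP N) : Prop where
  l : V.Val D₁.l D.l
  al : V.Val D₁.al D.al
  be : V.Val D₁.be D.be
  ps : V.Val D₁.ps D.ps
  rs : V.Val D₁.rs D.rs
  ss : V.Val D₁.ss D.ss
  k1 : V.Val D₁.k1 D.k1
  k2 : V.Val D₁.k2 D.k2
  a : V.Val D₁.a D.a
  b : V.Val D₁.b D.b
  b1 : V.Val D₁.b1 D.b1
  c0 : V.Val D₁.c0 D.c0
  d : V.Val D₁.d D.d

theorem vfp_of {c₁ : Fin 13 → N₁} {c : Fin 13 → N} (h : ∀ i, V.Val (c₁ i) (c i)) :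
    VFP V (of c₁) (of c) :=
  ⟨h 0, h 1, h 2, h 3, h 4, h 5, h 6, h 7, h 8, h 9, h 10, h 11, h 12⟩

variable {D₁ : FP N₁} {D : FP N} (h : VFP V D₁ D)

/-- the datum over the ring of pairs -/
def VFP.pr : FP (H55Z.Pr V) :=
  ⟨H55Z.mk h.l, H55Z.mk h.al, H55Z.mk h.be, H55Z.mk h.ps, H55Z.mk h.rs, H55Z.mk h.ss,
    H55Z.mk h.k1, H55Z.mk h.k2, H55Z.mk h.a, H55Z.mk h.b, H55Z.mk h.b1, H55Z.mk h.c0,
    H55Z.mk h.d⟩

theorem VFP.fs : h.pr.map (H55Z.fs V) = D₁ := rfl

theorem VFP.sn : h.pr.map (H55Z.sn V) = D := rfl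

theorem VFP.fs' : h.pr.map (H55Z.fs V : H55Z.Pr V →+* N₁) = D₁ := rfl

theorem VFP.sn' : h.pr.map (H55Z.sn V : H55Z.Pr V →+* N) = D := rfl

include h in
/-- **The values of the coefficients of the equation.** -/
theorem VFP.vpoly : PVal V (D₁.poly P) (D.poly P) := by
  have h1 := H55Z.pval_pr (h.pr.poly P)
  rw [map_poly, map_poly] at h1
  exact h1

variable {u₁ : N₁} {u : N} (hu : V.Val u₁ u)

include h hu

theorem VFP.vdl : V.Val (D₁.dl u₁ 1) (D.dl u 1) := by
  have h1 := H55Z.val_pr (h.pr.dl (H55Z.mk hu) 1)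
  have e1 := nat_dl h.pr (H55Z.fs V : H55Z.Pr V →+* N₁) (H55Z.mk hu) 1
  have e2 := nat_dl h.pr (H55Z.sn V : H55Z.Pr V →+* N) (H55Z.mk hu) 1
  rw [map_one] at e1 e2
  simp only [RingHom.coe_coe] at e1 e2
  rw [e1, e2] at h1
  exact h1

theorem VFP.vpt : V.Val (D₁.pt u₁ 1) (D.pt u 1) := by
  have h1 := H55Z.val_pr (h.pr.pt (H55Z.mk hu) 1)
  have e1 := nat_pt h.pr (H55Z.fs V : H55Z.Pr V →+* N₁) (H55Z.mk hu) 1
  have e2 := nat_pt h.pr (H55Z.sn V : H55Z.Pr V →+* N) (H55Z.mk hu) 1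
  rw [map_one] at e1 e2
  simp only [RingHom.coe_coe] at e1 e2
  rw [e1, e2] at h1
  exact h1

theorem VFP.vrt : V.Val (D₁.rt u₁ 1) (D.rt u 1) := by
  have h1 := H55Z.val_pr (h.pr.rt (H55Z.mk hu) 1)
  have e1 := nat_rt h.pr (H55Z.fs V : H55Z.Pr V →+* N₁) (H55Z.mk hu) 1
  have e2 := nat_rt h.pr (H55Z.sn V : H55Z.Pr V →+* N) (H55Z.mk hu) 1
  rw [map_one] at e1 e2
  simp only [RingHom.coe_coe] at e1 e2
  rw [e1, e2] at h1
  exact h1

theorem VFP.vst : V.Val (D₁.st u₁ 1) (D.st u 1) := by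
  have h1 := H55Z.val_pr (h.pr.st (H55Z.mk hu) 1)
  have e1 := nat_st h.pr (H55Z.fs V : H55Z.Pr V →+* N₁) (H55Z.mk hu) 1
  have e2 := nat_st h.pr (H55Z.sn V : H55Z.Pr V →+* N) (H55Z.mk hu) 1
  rw [map_one] at e1 e2
  simp only [RingHom.coe_coe] at e1 e2
  rw [e1, e2] at h1
  exact h1

theorem VFP.vwt : V.Val (D₁.wt u₁ 1) (D.wt u 1) := by
  have h1 := H55Z.val_pr (h.pr.wt (H55Z.mk hu) 1)
  have e1 := nat_wt h.pr (H55Z.fs V : H55Z.Pr V →+* N₁) (H55Z.mk hu) 1
  have e2 := nat_wt h.pr (H55Z.sn V : H55Z.Pr V →+* N) (H55Z.mk hu) 1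
  rw [map_one] at e1 e2
  simp only [RingHom.coe_coe] at e1 e2
  rw [e1, e2] at h1
  exact h1

theorem VFP.vdlt : V.Val (D₁.dlt P u₁ 1) (D.dlt P u 1) := by
  have h1 := H55Z.val_pr (h.pr.dlt P (H55Z.mk hu) 1)
  rw [map_dlt, map_dlt, map_one, map_one] at h1
  exact h1

theorem VFP.vnu : V.Val (D₁.nu P u₁ 1) (D.nu P u 1) := by
  have h1 := H55Z.val_pr (h.pr.nu P (H55Z.mk hu) 1)
  rw [map_nu, map_nu, map_one, map_one] at h1
  exact h1

theorem VFP.vyy (hD : D.dlt P u 1 ≠ 0) : V.Val (D₁.yy P u₁) (D.yy P u) :=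
  (h.vnu hu).div (h.vdlt hu) hD

theorem VFP.vpb (hd : D.dl u 1 ≠ 0) : V.Val (D₁.pb u₁) (D.pb u) := (h.vpt hu).div (h.vdl hu) hd

theorem VFP.vrb (hd : D.dl u 1 ≠ 0) : V.Val (D₁.rb u₁) (D.rb u) := (h.vrt hu).div (h.vdl hu) hd

theorem VFP.vsb (hd : D.dl u 1 ≠ 0) : V.Val (D₁.sb u₁) (D.sb u) := (h.vst hu).div (h.vdl hu) hd

theorem VFP.vom (hd : D.dl u 1 ≠ 0) : V.Val (D₁.om u₁) (D.om u) :=
  ((h.vwt hu).div (h.vdl hu) hd).sub (((h.vpb hu hd).pow 2).sub ((h.vrb hu hd).pow 2))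

end place

end FP

end Vale.Agent.P297.Z2
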