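import Vale.Agent.P297.H10.Z2.Mem6
import Vale.Agent.P297.H10.Z2.Const6
import Vale.Agent.P297.H637.Z2.Jet6
import Vale.Agent.P297.H496.Z2.Kappa

/-!
**[LINK6]** The chords over the general `y` and six lines through a node.
-/

set_option linter.unusedSectionVars false
set_option linter.unusedVariables false
set_option linter.style.haveILetI false

open Polynomial

namespace Vale.Agent.P297.H10.Z2

open Vale.Agent.P297 Vale.Agent.P297.Gen Vale.Agent.P297.H72 Vale.Agent.P297.H637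
open Vale.Agent.P297.H160.Z2Irr Vale.Agent.P297.Z2

section map

variable {k k' : Type} [Field k] [Algebra ℂ k] [Field k'] [Algebra ℂ k'] (f : k →ₐ[ℂ] k')
  {P : Par}

theorem isNode_map {l al be : k} (h : IsNode P l al be) : IsNode P (f l) (f al) (f be) where
  al0 := (_root_.map_ne_zero f).2 h.al0
  be0 := (_root_.map_ne_zero f).2 h.be0
  sub := by
    rw [← map_sub, h.sub, map_sub, map_one]
  cub := by
    have h1 := congrArg f h.cub
    simp only [map_mul, map_sub, map_add, map_pow, AlgHom.commutes] at h1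
    exact h1

/-- The relations between the letters are natural. -/
theorem base_map {D : FP k} (h : D.Base P) : (D.map f).Base P where
  node := isNode_map f h.node
  hs := by
    have h1 := congrArg f h.hs
    have h2 := (ntd P D.l D.al D.be).map_B2 (f : k →+* k') D.ps D.rs
    rw [map_pow] at h1
    change f D.ss ^ 2 = (ntd P (f D.l) (f D.al) (f D.be)).B2 (f D.ps) (f D.rs)
    rw [h1, ← map_ntd]
    exact h2
  ha := by
    have h1 := congrArg f h.ha
    simp only [map_add, map_sub, map_mul, map_pow, map_ofNat] at h1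
    change f D.a = 2 * f D.l ^ 2 * (f D.ps - (ntd P (f D.l) (f D.al) (f D.be)).pn +
      (f D.rs - (ntd P (f D.l) (f D.al) (f D.be)).rn)) * (f D.k1 + f D.k2) +
      8 * f D.al * f D.be * (f D.ps + f D.rs) * (f D.k1 + f D.k2) +
      4 * (ntd P (f D.l) (f D.al) (f D.be)).kp * f D.k1 +
      4 * (ntd P (f D.l) (f D.al) (f D.be)).kr * f D.k2
    rw [h1, ← map_ntd]
    rfl
  hb := by
    have h1 := congrArg f h.hb
    simp only [map_add, map_mul, map_pow, map_ofNat] at h1
    exact h1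

end map

theorem kp_ne_of_node {k : Type} [Field k] [Algebra ℂ k] {P : Par} (h : NC P) {l al be : k}
    (hl : Transcendental ℂ l) (hn : IsNode P l al be) :
    (ntd P l al be).kp ≠ (ntd P l al be).kr := by
  have ht := root_tr h hl (tC_of_isNode hn)
  obtain ⟨e1, e2⟩ := be_of_isNode h hl hn
  have e3 := l_eq h ht (tC_of_isNode hn)
  have h1 := kp_ne h ht
  unfold ndt at h1
  rwa [← e1, ← e2, ← e3] at h1

section main

variable {K N : Type} [Field K] [Algebra ℂ K] [Field N] [Algebra ℂ N] [IsAlgClosed N] {P : Par}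
  {x : Fin 5 → K}

theorem sp_of {l y p0 p1 r0 r1 s0 s1 s2 al be zs ss : N} (hsg : s2 = -(p1 ^ 2 - r1 ^ 2)) :
    (H860.Z2.spD P l al be y p0 p1 r0 r1 s0 s1 s2 zs ss).Sp y p0 p1 r0 r1 s0 s1 s2 zs where
  ps := by
    change p0 + p1 * zs - al * y = p0 - al * y + p1 * zs
    ring
  rs := by
    change r0 + r1 * zs + be * y = r0 + be * y + r1 * zs
    ring
  k1 := rfl
  k2 := rfl
  b1 := rfl
  c0 := rfl
  d := rfl
  s2 := hsg

/-- **[LINK6]** -/
theorem link6 {m : ℤ} (hx : H160.Z2Irr.IsFF P x) (h : NC P) (hM : P.M1 = 0) (hQ1 : P.Q1 ≠ 0)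
    (huv : P.u ≠ P.v) (h9 : H55Z.Good9 P N) : Link6S P x N m := by
  classical
  intro l y p0 p1 r0 r1 s0 s1 s2 z z' hi hY
  haveI : CharZero N := charZero_of_injective_algebraMap (algebraMap ℂ N).injective
  have hl : Transcendental ℂ l := hi.transcendental 0
  obtain ⟨al, be, zs, D, β, H⟩ := exists_m6 h hM hQ1 h9 hi hY
  refine ⟨al, be, fun j => D.pb (β j), fun j => D.rb (β j), fun j => D.sb (β j),
    fun j => D.om (β j), H.line, H.gen, ?_⟩
  have dl' : D.l = l := by rw [H.eq]; rfl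
  have dal : D.al = al := by rw [H.eq]; rfl
  have dbe : D.be = be := by rw [H.eq]; rfl
  have hkp : (ntd P D.l D.al D.be).kp - (ntd P D.l D.al D.be).kr ≠ 0 := by
    rw [dl', dal, dbe]
    exact sub_ne_zero.2 (kp_ne_of_node h hl H.node)
  obtain ⟨κ, hκ⟩ : ∃ κ, κ = 1 / (4 * ((ntd P D.l D.al D.be).kp - (ntd P D.l D.al D.be).kr)) :=
    ⟨_, rfl⟩
  have hκ1 : 4 * ((ntd P D.l D.al D.be).kp - (ntd P D.l D.al D.be).kr) * κ = 1 := by
    rw [hκ]
    field_simp
  have hκ0 : κ ≠ 0 := by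
    rintro rfl
    rw [mul_zero] at hκ1
    exact zero_ne_one hκ1
  have hSp : D.Sp y p0 p1 r0 r1 s0 s1 s2 zs := by
    rw [H.eq]
    exact sp_of hY.sgn
  obtain ⟨θ, hθ⟩ := FP.Sp.exists_dir h.P0 h.P2 h.Q huv (by rw [dl']; exact hi) hSp
    (by rw [dl']; exact hY.line) hκ0 H.ss β H.mem.dβ
  -- the place
  obtain ⟨N₁, _, _, _, _, _, V, T, -, hT0, hT, -⟩ := H279.exists_dir_plc N
    (fun _ : Fin 0 => (0 : N)) (fun _ => 0)
  haveI : CharZero N₁ := charZero_of_injective_algebraMap (algebraMap ℂ N₁).injective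
  let ι : N →ₐ[ℂ] N₁ := IsScalarTower.toAlgHom ℂ N N₁
  obtain ⟨E, hE⟩ : ∃ E, E = D.map ι := ⟨_, rfl⟩
  have hbE : E.Base P := by
    rw [hE]
    exact base_map ι H.mem.base
  have hκE : 4 * ((ntd P E.l E.al E.be).kp - (ntd P E.l E.al E.be).kr) * ι κ = 1 := by
    have h1 := congrArg ι hκ1
    simp only [map_mul, map_sub, map_ofNat, map_one] at h1
    have h2 := map_ntd ι P D.l D.al D.be
    rw [hE]
    change 4 * ((ntd P (ι D.l) (ι D.al) (ι D.be)).kp - (ntd P (ι D.l) (ι D.al) (ι D.be)).kr) *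
      ι κ = 1
    rw [← h2]
    exact h1
  obtain ⟨D₁, hD₁⟩ : ∃ D₁, D₁ = E.mv (ι κ) T (ι θ) := ⟨_, rfl⟩
  have hb₁ : D₁.Base P := by
    rw [hD₁]
    exact hbE.mv hκE T (ι θ)
  obtain ⟨c₀, hc₀⟩ : ∃ c₀, c₀ = D.vec := ⟨_, rfl⟩
  obtain ⟨c₁, hc₁⟩ : ∃ c₁, c₁ = D₁.vec := ⟨_, rfl⟩
  have d0 : D = FP.of c₀ := by
    rw [hc₀]
    exact (FP.of_vec D).symm
  have d1 : D₁ = FP.of c₁ := by
    rw [hc₁]
    exact (FP.of_vec D₁).symm
  obtain ⟨y₁, w, h1, h2⟩ : ∃ (y₁ : Fin 13 → N₁) (w : Fin 13 → N),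
      (∀ i, c₁ i = algebraMap N N₁ (c₀ i) + T * y₁ i) ∧ ∀ i, V.Val (y₁ i) (w i) := by
    have hz : V.Val (0 : N₁) (0 : N) := V.val_zero
    have hq : V.Val ((2 * ι D.ss + T) * ι κ) (2 * D.ss * κ) := by
      have h3 := ((H55Z.val_two (V := V)).mul (V.val_const D.ss)).add hT
      rw [add_zero] at h3
      exact h3.mul (V.val_const κ)
    refine ⟨![0, 0, 0, (2 * ι D.ss + T) * ι κ, -((2 * ι D.ss + T) * ι κ), 1, 0, 0, 0, 0, 0,
      ι θ, 0], ![0, 0, 0, 2 * D.ss * κ, -(2 * D.ss * κ), 1, 0, 0, 0, 0, 0, θ, 0], ?_, ?_⟩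
    · intro i
      rw [hc₁, hc₀, hD₁, hE]
      fin_cases i
      · change ι D.l = ι D.l + T * 0
        ring
      · change ι D.al = ι D.al + T * 0
        ring
      · change ι D.be = ι D.be + T * 0
        ring
      · change ι D.ps + (2 * ι D.ss * T + T ^ 2) * ι κ = ι D.ps + T * ((2 * ι D.ss + T) * ι κ)
        ring
      · change ι D.rs - (2 * ι D.ss * T + T ^ 2) * ι κ =
          ι D.rs + T * -((2 * ι D.ss + T) * ι κ)
        ring
      · change ι D.ss + T = ι D.ss + T * 1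
        ring
      · change ι D.k1 = ι D.k1 + T * 0
        ring
      · change ι D.k2 = ι D.k2 + T * 0
        ring
      · change ι D.a = ι D.a + T * 0
        ring
      · change ι D.b = ι D.b + T * 0
        ring
      · change ι D.b1 = ι D.b1 + T * 0
        ring
      · change ι D.c0 + ι θ * T = ι D.c0 + T * ι θ
        ring
      · change ι D.d = ι D.d + T * 0
        ring
    · intro i
      fin_cases i
      · exact hz
      · exact hz
      · exact hz
      · exact hq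
      · exact hq.neg
      · exact V.val_one
      · exact hz
      · exact hz
      · exact hz
      · exact hz
      · exact hz
      · exact V.val_const θ
      · exact hz
  have hc := FP.vals hT h1 h2
  obtain ⟨R, R₀, hR, hd, hn⟩ := FP.jets (P := P) hT h1 h2
  have hB : ∀ j, D.hY P (β j) 1 y = 0 := by
    intro j
    have h3 := H.mem.base.HP_lin hM (H.mem.dβ j)
    have h4 : D.dlt P (β j) 1 = 0 := by
      rw [← FP.dpoly_eval, H.mem.dA, eval_mul, eval_prod,
        Finset.prod_eq_zero (Finset.mem_univ j) (by rw [eval_sub, eval_X, eval_C, sub_self]),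
        mul_zero]
    have h5 : D.nu P (β j) 1 = 0 := by
      rw [← FP.npoly_eval, H.mem.ny, eval_mul, FP.dpoly_eval, h4, mul_zero]
    rw [← FP.eval_HP', h3, h4, h5, C_0, zero_mul, sub_zero, eval_zero]
  have hdet : ∀ j, y * (R₀ 0).eval (β j) - (R₀ 1).eval (β j) ≠ 0 := by
    intro j
    refine FP.det_ne hM hT hT0 hc (by rw [← d1]; exact hb₁) (by rw [← d0]; exact H.mem.ny) hR hd hn
      (by rw [← d0]; exact H.mem.dβ j) ⟨D.hK P κ 0 θ (β j) 1 y, hθ j, ?_⟩
    have h3 := FP.hY_mv P E (ι κ) T (ι θ) (ι (β j)) 1 (ι y)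
    have h4 : E.hY P (ι (β j)) 1 (ι y) = 0 := by
      have h5 := FP.map_hY P D ι (β j) 1 y
      rw [hB j, map_zero, map_one, ← hE] at h5
      exact h5.symm
    rw [h4, zero_add, ← hD₁, d1] at h3
    have h6 : (FP.of c₁).hY P (algebraMap N N₁ (β j)) 1 (algebraMap N N₁ y) / T =
        E.hK P (ι κ) T (ι θ) (ι (β j)) 1 (ι y) := by
      rw [div_eq_iff hT0, mul_comm]
      exact h3
    rw [h6]
    have hv : FP.VFP V E D := by
      rw [hE]
      exact ⟨V.val_const _, V.val_const _, V.val_const _, V.val_const _, V.val_const _,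
        V.val_const _, V.val_const _, V.val_const _, V.val_const _, V.val_const _,
        V.val_const _, V.val_const _, V.val_const _⟩
    have vκ : V.Val (ι κ) κ := V.val_const κ
    have vθ : V.Val (ι θ) θ := V.val_const θ
    have vb : V.Val (ι (β j)) (β j) := V.val_const _
    have vy : V.Val (ι y) y := V.val_const y
    have h7 := H55Z.val_pr (hv.pr.hK P (H55Z.mk vκ) (H55Z.mk hT) (H55Z.mk vθ) (H55Z.mk vb) 1
      (H55Z.mk vy))
    rw [FP.map_hK, FP.map_hK, map_one, map_one] at h7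
    exact h7
  obtain ⟨k1, k2, k3⟩ := FP.Mem.spec hx hM d0 d1 H.mem hc hb₁ hT hT0 hR
    (by rw [d1, hd, ← d0]) (by rw [d1, hn, ← d0]) hdet
  have hl₁ : Transcendental ℂ D₁.l := by
    have h3 : D₁.l = ι l := by
      rw [hD₁, hE, ← dl']
      rfl
    rw [h3]
    exact (transcendental_algebraMap_iff ι.injective).2 hl
  have hrel : D₁.VV P x ∈ Rel m K N₁ := FP.const6 hx h hM hb₁ hl₁ k2 fun u hu => by
    obtain ⟨g1, g2, g3⟩ := k3 u hu
    exact ⟨g1, g2, g3⟩
  have hfin := SpecC.rel k1 hrel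
  rw [H.cyc x, Finset.sum_congr rfl fun j _ => H.ncyc x j] at hfin
  exact hfin

end main

end Vale.Agent.P297.H10.Z2
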