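import Vale.Agent.P297.H54.Z2.Ycyc6
import Vale.Agent.P297.H637.Z2.Spec6
import Vale.Agent.P297.H860.Z2.SpecM
import Vale.Agent.P297.H72.Z2.G6e
import Vale.Agent.P297.H430.Z2.N2

/-!
The special member of the family of the two-sections: existence.
-/

set_option linter.unusedSectionVars false
set_option linter.unusedVariables false
set_option linter.style.haveILetI false

open Polynomial

namespace Vale.Agent.P297.H10.Z2

open Vale.Agent.P297 Vale.Agent.P297.Gen Vale.Agent.P297.H72 Vale.Agent.P297.H637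
open Vale.Agent.P297.H160.Z2Irr Vale.Agent.P297.Z2

section

variable {N : Type} [Field N] [Algebra ℂ N] [IsAlgClosed N] {P : Par}
  {l y p0 p1 r0 r1 s0 s1 s2 z z' : N}

/-- The data of the special member over a chord. -/
structure M6 (P : Par) (N : Type) [Field N] [Algebra ℂ N] (l y p0 p1 r0 r1 s0 s1 s2 al be zs : N)
    (D : FP N) (β : Fin 6 → N) : Prop where
  eq : D = H860.Z2.spD P l al be y p0 p1 r0 r1 s0 s1 s2 zs D.ss
  mem : FP.Mem P D y (D.dlt P 1 0) β
  ss : D.ss ≠ 0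
  node : IsNode P l al be
  gen : ∀ j, D.pb (β j) ∉ cl0 ({l} : Set N) ∨ D.rb (β j) ∉ cl0 ({l} : Set N)
  line : ∀ j, NLine P l al be (D.pb (β j)) (D.rb (β j)) (D.sb (β j)) (D.om (β j))
  cyc : ∀ {K : Type} [Field K] [Algebra ℂ K] (x₀ : Fin 5 → K),
    ((D.gpoly P y).roots.map fun a => H160.Z2Irr.pt x₀ (D.qS P a y)).sum =
      (2 : ℤ) • ycyc P x₀ l y p0 p1 r0 r1 s0 s1 s2
  ncyc : ∀ {K : Type} [Field K] [Algebra ℂ K] (x₀ : Fin 5 → K) j,
    ((D.lnp P (β j)).roots.map fun a => H160.Z2Irr.pt x₀ (D.qS P (β j) a)).sum =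
      ncyc P x₀ l al be (D.pb (β j)) (D.rb (β j)) (D.sb (β j)) (D.om (β j))

/-- **The special member over a chord exists.** -/
theorem exists_m6 (h : NC P) (hM : P.M1 = 0) (hQ1 : P.Q1 ≠ 0) (h9 : H55Z.Good9 P N)
    (hi : AlgebraicIndependent ℂ ![l, y]) (hY : YGood P l y p0 p1 r0 r1 s0 s1 s2 z z') :
    ∃ (al be zs : N) (D : FP N) (β : Fin 6 → N),
      M6 P N l y p0 p1 r0 r1 s0 s1 s2 al be zs D β := by
  classical
  haveI : CharZero N := charZero_of_injective_algebraMap (algebraMap ℂ N).injective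
  have hl : Transcendental ℂ l := hi.transcendental 0
  have hy : Transcendental ℂ y := hi.transcendental 1
  obtain ⟨al, be, hn, -, -, hgen, hp1, h6, hconic⟩ :=
    H72.Z2.exists_good6 h hM hQ1 hi hY.line
  have hsq : p1 ^ 2 ≠ r1 ^ 2 := H430.Z2.yline_sq_ne h.Q hy hY.line
  have hk : p1 + r1 ≠ 0 := by
    intro h0
    apply hsq
    linear_combination (p1 - r1) * h0
  have hlam := H430.Z2.lam_ne h hl hn
  obtain ⟨zs, hzs, hB2, hT⟩ := H54.Z2.exists_base (y := y) (p0 := p0) (r0 := r0) hn hk h6 hlam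
    ({z, z'} : Finset N)
  rw [Finset.mem_insert, Finset.mem_singleton, not_or] at hzs
  obtain ⟨ss, hss⟩ := IsAlgClosed.exists_pow_nat_eq
    ((ntd P l al be).B2 (p0 - al * y + p1 * zs) (r0 + be * y + r1 * zs)) (n := 2) (by norm_num)
  have hss0 : ss ≠ 0 := by
    rintro rfl
    apply hB2
    rw [← hss]
    ring
  have e1 : p0 - al * y + p1 * zs = p0 + p1 * zs - al * y := by ring
  have e2 : r0 + be * y + r1 * zs = r0 + r1 * zs + be * y := by ring
  rw [e1, e2] at hss hT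
  obtain ⟨D, hD⟩ : ∃ D, D = H860.Z2.spD P l al be y p0 p1 r0 r1 s0 s1 s2 zs ss := ⟨_, rfl⟩
  have hb : D.Base P := by
    rw [hD]
    exact H860.Z2.spD_base hn hss
  have dl' : D.l = l := by rw [hD]; rfl
  have dal : D.al = al := by rw [hD]; rfl
  have dbe : D.be = be := by rw [hD]; rfl
  have dps : D.ps = p0 + p1 * zs - al * y := by rw [hD]; rfl
  have drs : D.rs = r0 + r1 * zs + be * y := by rw [hD]; rfl
  have dss : D.ss = ss := by rw [hD]; rfl
  have dk1 : D.k1 = p1 := by rw [hD]; rfl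
  have dk2 : D.k2 = r1 := by rw [hD]; rfl
  have hon : H54.Z2.OnM D y p0 p1 r0 r1 s0 s1 s2 zs := by
    refine ⟨fun u hu => ?_, fun u hu => ?_, fun u hu => ?_⟩
    · rw [hD] at hu ⊢
      exact H860.Z2.sp_p hu
    · rw [hD] at hu ⊢
      exact H860.Z2.sp_r hu
    · rw [hD] at hu ⊢
      exact H860.Z2.sp_S hY.sgn hu
  have hY' : YGood P D.l y p0 p1 r0 r1 s0 s1 s2 z z' := by
    rw [dl']
    exact hY
  have hcon : D.a ^ 2 - 4 * D.ss ^ 2 * D.b ≠ 0 := by
    have h1 := hconic zs (D.ss ^ 2) D.a D.b (fun x => by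
      rw [hb.ha, hb.hb, hb.hs, dl', dal, dbe, dps, drs, dk1, dk2]
      have f1 : (ntd P l al be).l = l := rfl
      have f2 : (ntd P l al be).al = al := rfl
      have f3 : (ntd P l al be).be = be := rfl
      unfold TD.B2 TD.W
      rw [f1, f2, f3]
      ring)
    intro h0
    apply h1
    linear_combination h0
  have hcon' : D.a ^ 2 ≠ 4 * D.ss ^ 2 * D.b := fun h0 => hcon (sub_eq_zero.2 h0)
  have hS := hon.special hM hb hY'.line
  have hκ : D.dlt P 1 0 ≠ 0 := H54.Z2.dlt_one_zero hS (by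
    rw [dl', dal, dbe, dps, drs]
    exact hT)
  have hN2 : ∀ u, D.dl u 1 = 0 → D.dlt P u 1 ≠ 0 := fun u hu =>
    H430.Z2.dlt_ne D hb.node.sub hb.hb (by rw [dk1, dk2]; exact hsq)
      (by rw [dl', dal, dbe, dk1, dk2]; exact h6) hcon' hu
  obtain ⟨β, hβ, hβ'⟩ := hS.exists_beta hκ hN2
  obtain ⟨g4, groot, gsum⟩ := hon.roots hM hb hY' hzs.1 hzs.2 hcon'
  have hline : ∀ j, NLine P l al be (D.pb (β j)) (D.rb (β j)) (D.sb (β j)) (D.om (β j)) := by
    intro j
    have h1 := hS.nline (hβ' j).2 (hβ' j).1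
    rwa [dl', dal, dbe] at h1
  have hgen' : ∀ j, D.pb (β j) ∉ cl0 ({l} : Set N) ∨ D.rb (β j) ∉ cl0 ({l} : Set N) := by
    intro j
    have h1 := hon.p (β j) (hβ' j).2
    have h2 := hon.r (β j) (hβ' j).2
    rw [dal] at h1
    rw [dbe] at h2
    exact hgen _ _ _ _ _ (hline j) h1 h2
  have hD9 : H55Z.Deg9 P := H55Z.deg9 P
  refine ⟨al, be, zs, D, β, ?_, ?_, ?_, hn, hgen', hline, ?_, ?_⟩
  · rw [dss]
    exact hD
  · refine ⟨hb, hS.nu_poly, hκ, hβ, g4, fun j => (hβ' j).2, fun a ha => (groot a ha).1, ?_, ?_,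
      fun a ha => (groot a ha).2⟩
    · intro j
      exact H55Z.cP_natDegree h hD9 (by rw [dl']; exact hl) hb.node
    · intro j x hx
      have h1 : tPhi P D.l (D.al * x + D.pb (β j)) (-D.be * x + D.rb (β j)) x
          (D.sb (β j) * x + D.om (β j)) = 0 := by
        rw [← H55Z.tPhi_line]
        exact hx
      unfold FP.Gd
      rw [dl', dal, dbe] at h1 ⊢
      exact h9 _ _ _ _ _ _ _ _ hl (hline j) (hgen' j) h1
  · rw [dss]
    exact hss0
  · intro K _ _ x₀
    have h1 := gsum x₀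
    rw [dl'] at h1
    unfold FP.gpoly FP.qS
    rw [dl']
    exact h1
  · intro K _ _ x₀ j
    unfold Z2.ncyc Z2.cyc FP.lnp FP.qS
    rw [dl', dal, dbe]
    congr 1
    refine Multiset.map_congr rfl fun a _ => ?_
    simp only [eval_add, eval_mul, eval_C, eval_X]

end

end Vale.Agent.P297.H10.Z2
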