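import Vale.Agent.P297.H10.Z2.TDMap
import Vale.Agent.P297.H940.Z2.Inst

/-!
Naturality of the datum of a node and of its scaled quartic.
-/

set_option linter.unusedSectionVars false
set_option linter.unusedVariables false

namespace Vale.Agent.P297.Z2

open Vale.Agent.P297.H160.Z2Irr

section

variable {k k' : Type} [Field k] [Algebra ℂ k] [Field k'] [Algebra ℂ k'] (f : k →ₐ[ℂ] k')

theorem map_ntd (P : Par) (l al be : k) :
    (ntd P l al be).map f = ntd P (f l) (f al) (f be) := by
  simp only [ntd, TD.map, map_add, map_sub, map_mul, map_neg, map_div₀, map_ofNat,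
    AlgHom.commutes]

/-- the scaled quartic `q4 / (al be) ^ 2` -/
theorem map_ntd_qc (P : Par) (l al be : k) (j : Fin 5) :
    f ((ntd P l al be).qc j / (al * be) ^ 2) =
      (ntd P (f l) (f al) (f be)).qc j / (f al * f be) ^ 2 := by
  rw [← map_ntd, map_div₀, map_pow, map_mul]
  congr 1
  exact (ntd P l al be).map_qc (f : k →+* k') j

end

end Vale.Agent.P297.Z2
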