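import Vale.Agent.P297.H940.Z2.Bir

/-!
Naturality of the objects attached to a node: the image of a datum `TD` under a ring homomorphism.
-/

set_option linter.unusedSectionVars false
set_option linter.unusedVariables false

namespace Vale.Agent.P297.Z2

namespace TD

section ring

variable {R R' : Type} [CommRing R] [CommRing R']

/-- the image of a datum -/
def map (d : TD R) (f : R → R') : TD R' where
  al := f d.al
  be := f d.be
  l := f d.l
  e := f d.e
  A := f d.A
  C := f d.C
  pn := f d.pn
  rn := f d.rn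
  kp := f d.kp
  kr := f d.kr
  w0 := f d.w0

variable (d : TD R) (f : R →+* R') (p r X S : R)

theorem map_W : f (d.W p r) = (d.map f).W (f p) (f r) := by
  simp only [W, map, map_add, map_mul, map_pow]

theorem map_ka : f (d.ka p r) = (d.map f).ka (f p) (f r) := by
  simp only [ka, map_sub, map_mul, map_W]
  rfl

theorem map_M0 : f (d.M0 p r) = (d.map f).M0 (f p) (f r) := by
  simp only [M0, map, map_sub, map_add, map_mul, map_pow]

theorem map_g2 : f (d.g2 p r) = (d.map f).g2 (f p) (f r) := by
  simp only [g2, map, map_sub, map_mul]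

theorem map_g3 : f (d.g3 p r) = (d.map f).g3 (f p) (f r) := by
  simp only [g3, map, map_sub, map_mul]

theorem map_B2 : f (d.B2 p r) = (d.map f).B2 (f p) (f r) := by
  simp only [B2, map_add, map_sub, map_mul, map_pow, map_ofNat, map_W]
  rfl

theorem map_c : f d.c = (d.map f).c := by
  simp only [c, map, map_add, map_mul]

theorem map_q2 : f (d.q2 X) = (d.map f).q2 (f X) := by
  simp only [q2, map, map_sub, map_mul, map_pow, map_ofNat]

theorem map_t0 : f (d.t0 X) = (d.map f).t0 (f X) := by
  simp only [t0, map, map_add, map_mul]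

theorem map_t1 : f (d.t1 X) = (d.map f).t1 (f X) := by
  simp only [t1, map, map_add, map_mul]

theorem map_r1 : f (d.r1 X) = (d.map f).r1 (f X) := by
  simp only [r1, map, map_add, map_mul, map_ofNat]

theorem map_M1 : f (d.M1 X) = (d.map f).M1 (f X) := by
  simp only [M1, map_add, map_sub, map_mul, map_t0]
  rfl

theorem map_d2 : f (d.d2 X) = (d.map f).d2 (f X) := by
  simp only [d2, map_neg, map_mul, map_t1]
  rfl

theorem map_d1 : f (d.d1 X) = (d.map f).d1 (f X) := by
  simp only [d1, map_sub, map_mul, map_r1, map_c]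

theorem map_d0 : f (d.d0 X) = (d.map f).d0 (f X) := by
  simp only [d0, map_neg, map_sub, map_mul, map_pow, map_t0, map_c]

theorem map_y2 : f d.y2 = (d.map f).y2 := by
  simp only [y2, map, map_neg, map_mul]

theorem map_y1 : f (d.y1 X) = (d.map f).y1 (f X) := by
  simp only [y1, map_add, map_sub, map_neg, map_mul, map_ofNat, map_r1]
  rfl

theorem map_y0 : f (d.y0 X) = (d.map f).y0 (f X) := by
  simp only [y0, map_add, map_sub, map_mul, map_pow, map_ofNat, map_t0, map_q2, map_c]
  rfl

theorem map_T2 : f (d.T2 X) = (d.map f).T2 (f X) := by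
  simp only [T2, map_sub, map_mul, map_q2, map_y2, map_M1, map_d2]
  rfl

theorem map_T1 : f (d.T1 X) = (d.map f).T1 (f X) := by
  simp only [T1, map_sub, map_mul, map_q2, map_y1, map_M1, map_d1]
  rfl

theorem map_T0 : f (d.T0 X) = (d.map f).T0 (f X) := by
  simp only [T0, map_sub, map_mul, map_q2, map_y0, map_M1, map_d0]
  rfl

theorem map_Le : f (d.Le X S) = (d.map f).Le (f X) (f S) := by
  simp only [Le, map_sub, map_mul, map_ofNat, map_t0, map_r1, map_c]

theorem map_qc (j : Fin 5) : f (d.qc j) = (d.map f).qc j := by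
  fin_cases j
  all_goals
    simp only [qc, Q20, h0, h1, Y11, Y10, Y02, Y01, Y00, mu0, ze0, K12, K11, K10, G3, G2, G1, G0,
      D2, D1, D0, c, map, Fin.zero_eta, Fin.mk_one, Fin.reduceFinMk, Matrix.cons_val_zero,
      Matrix.cons_val_one, Matrix.cons_val, map_add, map_sub, map_neg, map_mul, map_pow, map_ofNat]

theorem map_q4 : f (d.q4 X) = (d.map f).q4 (f X) := by
  simp only [q4, G4.qv, map_add, map_mul, map_pow, map_qc]

theorem map_jn : f (d.jn p r) = (d.map f).jn (f p) (f r) := by
  simp only [jn, map_add, map_sub, map_mul, map_g2, map_g3, map_ka]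
  rfl

theorem map_b1 : f (d.b1 p r) = (d.map f).b1 (f p) (f r) := by
  simp only [b1, map_add, map_sub, map_mul, map_ofNat, map_jn, map_g2, map_g3, map_ka]
  rfl

theorem map_b0 : f (d.b0 p r) = (d.map f).b0 (f p) (f r) := by
  simp only [b0, map_add, map_sub, map_mul, map_pow, map_ofNat, map_jn, map_g2, map_g3, map_ka]
  rfl

end ring

section field

variable {k k' : Type} [Field k] [Field k'] (d : TD k) (f : k →+* k') (p r s X w v : k)

theorem map_Gf : f (d.Gf p r) = (d.map f).Gf (f p) (f r) := by
  simp only [Gf, map_div₀, map_M0, map_ka]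

theorem map_Xf : f (d.Xf p r) = (d.map f).Xf (f p) (f r) := by
  simp only [Xf, map_add, map_mul, map_Gf]
  rfl

theorem map_Sf : f (d.Sf p r) = (d.map f).Sf (f p) (f r) := by
  simp only [Sf, map_add, map_sub]
  rfl

theorem map_wf : f (d.wf p r s) = (d.map f).wf (f p) (f r) (f s) := by
  simp only [wf, map_div₀, map_add, map_mul, map_ofNat, map_q2, map_Le, map_Xf, map_Sf]
  rfl

theorem map_vf : f (d.vf p r s) = (d.map f).vf (f p) (f r) (f s) := by
  simp only [vf, map_div₀, map_add, map_mul, map_ofNat, map_T2, map_T1, map_Xf, map_Sf, map_wf]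
  rfl

theorem map_Sb : f (d.Sb X w v) = (d.map f).Sb (f X) (f w) (f v) := by
  simp only [Sb, map_div₀, map_sub, map_mul, map_ofNat, map_T2, map_T1]
  rfl

theorem map_ab : f (d.ab X w v) = (d.map f).ab (f X) (f w) (f v) := by
  simp only [ab, map_div₀, map_sub, map_mul, map_c, map_Sb]
  rfl

theorem map_bb : f (d.bb X w v) = (d.map f).bb (f X) (f w) (f v) := by
  simp only [bb, map_div₀, map_sub, map_mul, map_c, map_Sb]
  rfl

theorem map_Gb : f (d.Gb X w v) = (d.map f).Gb (f X) (f w) (f v) := by
  simp only [Gb, map_div₀, map_add, map_mul, map_pow, map_d2, map_d1, map_d0, map_q2, map_Sb]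
  rfl

theorem map_pb : f (d.pb X w v) = (d.map f).pb (f X) (f w) (f v) := by
  simp only [pb, map_add, map_sub, map_mul, map_ab, map_Gb]
  rfl

theorem map_rb : f (d.rb X w v) = (d.map f).rb (f X) (f w) (f v) := by
  simp only [rb, map_add, map_mul, map_bb, map_Gb]
  rfl

theorem map_sb : f (d.sb X w v) = (d.map f).sb (f X) (f w) (f v) := by
  simp only [sb, map_div₀, map_add, map_mul, map_ofNat, map_q2, map_Le, map_Sb]
  rfl

end field

end TD

end Vale.Agent.P297.Z2
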