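import Vale.Agent.P297.H940.Z2.Map
import Vale.Agent.P297.H54.T8Tri

/-!
The three scaled quartics of the nodes of `T_l`: the instance of `TriD`.
-/

set_option linter.unusedSectionVars false
set_option linter.unusedVariables false

open Polynomial

namespace Vale.Agent.P297.Z2

open Vale.Agent.P297 Vale.Agent.P297.Gen Vale.Agent.P297.G4 Vale.Agent.P297.H54
open Vale.Agent.P297.H160.Z2Irr

/-- The invariants of the quartics of the nodes are polynomials `p`, `q` in `l`. -/
structure InvPQ (P : Par) (p q : ℂ[X]) : Prop where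
  degp : p.natDegree ≤ 4
  degq : q.natDegree ≤ 6
  disc : 4 * p ^ 3 ≠ q ^ 2
  nt : ∀ α β a b : ℂ, ¬ (p = C α * (C a * X + C b) ^ 4 ∧ q = C β * (C a * X + C b) ^ 6)
  hI : ∀ (N : Type) [Field N] [Algebra ℂ N] (l al be : N), IsNode P l al be →
    qI (ntd P l al be).qc = (al * be) ^ 4 * aeval l p
  hJ : ∀ (N : Type) [Field N] [Algebra ℂ N] (l al be : N), IsNode P l al be →
    qJ (ntd P l al be).qc = (al * be) ^ 6 * aeval l q

section

variable {N : Type} [Field N] [Algebra ℂ N] {P : Par} {p q : ℂ[X]} {l al be : N}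

theorem qI_div {k : Type} [Field k] (c : Fin 5 → k) (x : k) :
    qI (fun j => c j / x) = qI c / x ^ 2 := by
  unfold qI
  ring

theorem qJ_div {k : Type} [Field k] (c : Fin 5 → k) (x : k) :
    qJ (fun j => c j / x) = qJ c / x ^ 3 := by
  unfold qJ
  ring

theorem InvPQ.qI_eq (I : InvPQ P p q) (hn : IsNode P l al be) :
    qI (cq P l al be) = aeval l p := by
  have h := mul_ne_zero hn.al0 hn.be0
  unfold cq
  rw [qI_div, I.hI N l al be hn, div_eq_iff (pow_ne_zero 2 (pow_ne_zero 2 h))]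
  ring

theorem InvPQ.qJ_eq (I : InvPQ P p q) (hn : IsNode P l al be) :
    qJ (cq P l al be) = aeval l q := by
  have h := mul_ne_zero hn.al0 hn.be0
  unfold cq
  rw [qJ_div, I.hJ N l al be hn, div_eq_iff (pow_ne_zero 3 (pow_ne_zero 2 h))]
  ring

/-- the discriminant does not vanish at a transcendental number -/
theorem InvPQ.disc_ne (I : InvPQ P p q) (hl : Transcendental ℂ l) :
    4 * (-(aeval l p) / 3) ^ 3 + 27 * (-(aeval l q) / 27) ^ 2 ≠ 0 := by
  have hch : CharZero N := charZero_of_injective_algebraMap (algebraMap ℂ N).injective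
  intro h0
  have h1 : aeval l (4 * p ^ 3 - q ^ 2) = 0 := by
    rw [map_sub, map_mul, map_pow, map_pow, map_ofNat]
    linear_combination (-27) * h0
  exact tr_aeval_ne hl (sub_ne_zero.2 I.disc) h1

variable [IsAlgClosed N] {t : Fin 3 → N}

/-- the coefficients are algebraic over `l` -/
theorem Tri.memc (h : NC P) (hl : Transcendental ℂ l) (H : Tri P l t) (i : Fin 3) (j : Fin 5) :
    cq P l (nal P (t i)) (nbe P (t i)) j ∈ cl0 ({l} : Set N) := by
  have hlm : l ∈ cl0 ({l} : Set N) := subset_cl0 _ rfl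
  have htm := H.mem h hl i
  have hD : ∀ z : cl0 ({l} : Set N), ((nbe P z : cl0 ({l} : Set N)) : N) = nbe P (z : N) ∧
      ((nal P z : cl0 ({l} : Set N)) : N) = nal P (z : N) := by
    intro z
    have e1 := map_tq P (cl0 ({l} : Set N)).val z
    have e2 := map_tD P (cl0 ({l} : Set N)).val z
    change ((tq P z : cl0 ({l} : Set N)) : N) = tq P (z : N) at e1
    change ((tD P z : cl0 ({l} : Set N)) : N) = tD P (z : N) at e2
    have e3 : ((nbe P z : cl0 ({l} : Set N)) : N) = nbe P (z : N) := by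
      unfold nbe
      rw [← e1, ← e2]
      rfl
    refine ⟨e3, ?_⟩
    unfold nal
    rw [← e3]
    rfl
  have h1 := map_cq P (cl0 ({l} : Set N)).val ⟨l, hlm⟩ (nal P ⟨t i, htm⟩) (nbe P ⟨t i, htm⟩) j
  change _ = cq P l ((nal P (⟨t i, htm⟩ : cl0 ({l} : Set N)) : cl0 ({l} : Set N)) : N)
    ((nbe P (⟨t i, htm⟩ : cl0 ({l} : Set N)) : cl0 ({l} : Set N)) : N) j at h1
  rw [(hD ⟨t i, htm⟩).1, (hD ⟨t i, htm⟩).2] at h1
  rw [← show _ = cq P l (nal P (t i)) (nbe P (t i)) j from h1]
  exact (cq P (⟨l, hlm⟩ : cl0 ({l} : Set N)) (nal P ⟨t i, htm⟩) (nbe P ⟨t i, htm⟩) j).2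

theorem map_cq_aux (g : N ≃ₐ[ℂ] N) (hg : g l = l) (x : N) (j : Fin 5) :
    g (cq P l (nal P x) (nbe P x) j) = cq P l (nal P (g x)) (nbe P (g x)) j := by
  have h1 := map_cq P (g : N →ₐ[ℂ] N) l (nal P x) (nbe P x) j
  rw [map_nal, map_nbe] at h1
  change _ = cq P (g l) (nal P (g x)) (nbe P (g x)) j at h1
  rw [hg] at h1
  exact h1

/-- **The three quartics over the nodes of `T_l`.** -/
theorem Tri.triD (h : NC P) (I : InvPQ P p q) (h4 : Algebra.trdeg ℂ N = 4)
    (hl : Transcendental ℂ l) (H : Tri P l t) :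
    TriD t (fun i => cq P l (nal P (t i)) (nbe P (t i))) l (-(aeval l p) / 3)
      (-(aeval l q) / 27) where
  deg := h4
  tr := hl
  ktr := H.tr h hl
  kmem := H.mem h hl
  lmem := H.lmem h hl
  memc := H.memc h hl
  fixk := by
    intro g i hg j
    have h1 := map_cq_aux (P := P) g (H.fix_l h hl hg) (t i) j
    rw [hg] at h1
    exact h1
  perm := by
    intro g hg
    obtain ⟨σ, hσ⟩ := H.perm g hg
    refine ⟨σ, fun i => ⟨hσ i, fun j => ?_⟩⟩
    have h1 := map_cq_aux (P := P) g hg (t i) j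
    rw [hσ i] at h1
    exact h1
  ha := fun i => by rw [I.qI_eq (H.isNode h hl i)]
  hb := fun i => by rw [I.qJ_eq (H.isNode h hl i)]
  hd := I.disc_ne hl

end

end Vale.Agent.P297.Z2
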